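import Vale.Agent.P068.Basic

/-!
# Intersection for pairs with a finite maximal common independent set

Any two matroids on an arbitrary ground set satisfy intersection if they, or their duals, have a
finite maximal common independent set; in particular if one of them has finite rank or corank.
-/

namespace Vale.Agent.Results.P068.FiniteCoreIntersection

open Vale.Agent.P068
open scoped Matroid

universe u

theorem result (α : Type u) (M N : Matroid α) (hE : M.E = N.E) :
    ((HasFiniteMaximalCommon M N ∨ HasFiniteMaximalCommon M✶ N✶) → SatisfiesIntersection M N) ∧
    ((M.RankFinite ∨ M✶.RankFinite ∨ N.RankFinite ∨ N✶.RankFinite) → SatisfiesIntersection M N) := by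
  have key : (HasFiniteMaximalCommon M N ∨ HasFiniteMaximalCommon M✶ N✶) →
      SatisfiesIntersection M N := by
    rintro (h | h)
    · exact intersection_of_finite hE h
    · exact intersection_of_dual hE (intersection_of_finite (by simpa using hE) h)
  refine ⟨key, ?_⟩
  rintro (h | h | h | h)
  · exact key (Or.inl (hasFiniteMaximalCommon_of_rankFinite h))
  · exact key (Or.inr (hasFiniteMaximalCommon_of_rankFinite h))
  · exact key (Or.inl (hasFiniteMaximalCommon_symm (hasFiniteMaximalCommon_of_rankFinite h)))
  · exact key (Or.inr (hasFiniteMaximalCommon_symm (hasFiniteMaximalCommon_of_rankFinite h)))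

end Vale.Agent.Results.P068.FiniteCoreIntersection
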