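import Vale.Agent.P068.Wild.Refute
import Vale.Agent.P068.Wild.PackingCovering

/-!
# The continuum hypothesis (indeed `r = 𝔠`) refutes matroid intersection and packing/covering

If every family of fewer than continuum many infinite subsets of `ℕ` is split by one set, there is
a pair of matroids on a countable ground set, a direct sum of countably many uniform matroids and a
finitary partition matroid, which does not satisfy intersection.
-/

namespace Vale.Agent.Results.P068.IntersectionFailsUnderCH

open Vale.Agent.P068 Vale.Agent.P068.Wild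
open scoped Matroid

theorem result :
    ((∀ 𝓕 : Set (Set ℕ), Cardinal.mk 𝓕 < Cardinal.continuum → (∀ s ∈ 𝓕, s.Infinite) →
        ∃ C : Set ℕ, ∀ s ∈ 𝓕, (s ∩ C).Infinite ∧ (s \ C).Infinite) →
      ∃ (α : Type) (_ : Countable α) (M N : Matroid α),
        M.E = Set.univ ∧ N.E = Set.univ ∧ N.Finitary ∧
        ¬ SatisfiesIntersection M N ∧
        ¬ HasPackingCovering M.E (fun b : Bool => bif b then M else N✶)) ∧
    (Cardinal.continuum.{0} = Cardinal.aleph 1 →
      (¬ ∀ (α : Type) (M N : Matroid α), M.E = N.E → SatisfiesIntersection M N) ∧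
      ¬ ∀ (α ι : Type) (E : Set α) (M : ι → Matroid α),
        (∀ i, (M i).E = E) → HasPackingCovering E M) := by
  have main : SplitHyp → ∃ (α : Type) (_ : Countable α) (M N : Matroid α),
      M.E = Set.univ ∧ N.E = Set.univ ∧ N.Finitary ∧
      ¬ SatisfiesIntersection M N ∧
      ¬ HasPackingCovering M.E (fun b : Bool => bif b then M else N✶) := by
    intro h
    obtain ⟨W, hW, hno⟩ := exists_counterexample h
    exact ⟨Pt, inferInstance, bigM W, pairN, bigM_ground hW, pairN_ground,
      inferInstanceAs ((Matroid.freeOn Set.univ).comap pairMap).Finitary, hno,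
      fun hpc => hno (intersection_of_packingCovering (ground_eq hW) hpc)⟩
  refine ⟨main, fun hCH => ?_⟩
  obtain ⟨α, _, M, N, hM, hN, -, hno, hno'⟩ := main (splitHyp_of_ch hCH)
  refine ⟨fun h => hno (h α M N (hM.trans hN.symm)), fun h => hno' (h α Bool M.E _ ?_)⟩
  rintro (_ | _)
  · exact hN.trans hM.symm
  · rfl

end Vale.Agent.Results.P068.IntersectionFailsUnderCH
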